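import Vale.Agent.P363.Inter.Ion.Moment

/-!
P363, interacting side: far away the repulsion couples the ion ground state to the odd singlet
like a dipole.
-/

noncomputable section

namespace Vale.Agent.P363.Inter

open MeasureTheory Filter Set
open scoped BigOperators Topology RealInnerProductSpace

/-- Point and mirror image against a nearby charge: the linear term. -/
theorem inv_dist_mirror_linear (x w : Space) (hx : x ≠ 0) (hw : ‖w‖ ≤ ‖x‖ / 2) :
    |1 / ‖x - w‖ - 1 / ‖mirror x - w‖ - 2 * height x * w 2 / ‖x‖ ^ 3| ≤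
      80 * |height x| * ‖w‖ ^ 2 / ‖x‖ ^ 4 := by
  have hr : 0 < ‖x‖ := norm_pos_iff.2 hx
  have hm : ‖mirror x‖ = ‖x‖ := by rw [← One.mirrorIso_apply, One.mirrorIso.norm_map]
  have hsq : ‖mirror x - w‖ ^ 2 - ‖x - w‖ ^ 2 = 4 * height x * w 2 := by
    rw [norm_sub_sq_real, norm_sub_sq_real, hm]
    simp only [mirror, inner_sub_left, inner_smul_left, height, unit3,
      EuclideanSpace.inner_single_left, map_mul, map_ofNat, RCLike.conj_to_real, map_one]
    ring
  have a1 : ‖x - w‖ ≤ ‖x‖ + ‖w‖ := norm_sub_le x w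
  have a2 : ‖x‖ - ‖w‖ ≤ ‖x - w‖ := norm_sub_norm_le x w
  have b1 : ‖mirror x - w‖ ≤ ‖x‖ + ‖w‖ := (norm_sub_le _ w).trans_eq (by rw [hm])
  have b2 : ‖x‖ - ‖w‖ ≤ ‖mirror x - w‖ := by
    have := norm_sub_norm_le (mirror x) w
    rwa [hm] at this
  set a := ‖x - w‖
  set b := ‖mirror x - w‖
  set r := ‖x‖
  set ρ := ‖w‖ with hρ
  have hρ0 : 0 ≤ ρ := norm_nonneg _
  have ha0 : 0 < a := by linarith
  have hb0 : 0 < b := by linarith
  set D := a * b * (a + b) with hD
  have hD1 : 2 * (r - ρ) ^ 3 ≤ D := by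
    calc 2 * (r - ρ) ^ 3 = (r - ρ) * (r - ρ) * ((r - ρ) + (r - ρ)) := by ring
      _ ≤ D := by
        refine mul_le_mul (mul_le_mul a2 b2 (by linarith) ha0.le) (add_le_add a2 b2)
          (by linarith) (by positivity)
  have hD2 : D ≤ 2 * (r + ρ) ^ 3 := by
    calc D ≤ (r + ρ) * (r + ρ) * ((r + ρ) + (r + ρ)) :=
          mul_le_mul (mul_le_mul a1 b1 hb0.le (by linarith)) (add_le_add a1 b1) (by positivity)
            (by positivity)
      _ = _ := by ring
  have hD0 : r ^ 3 / 4 ≤ D := le_trans (by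
    nlinarith [pow_le_pow_left₀ (by linarith : (0 : ℝ) ≤ r / 2) (by linarith : r / 2 ≤ r - ρ) 3]) hD1
  have hDpos : 0 < D := lt_of_lt_of_le (by positivity) hD0
  have hnum : |2 * r ^ 3 - D| ≤ 10 * r ^ 2 * ρ := by
    have k1 := mul_nonneg hρ0 (mul_nonneg hr.le (by linarith : 0 ≤ r - 2 * ρ))
    have k2 := mul_nonneg (sq_nonneg ρ) (by linarith : 0 ≤ r - 2 * ρ)
    have k3 := mul_nonneg (sq_nonneg r) hρ0
    rw [abs_le]
    constructor <;> nlinarith [pow_nonneg hρ0 3]
  have hc : |4 / D - 2 / r ^ 3| ≤ 80 * ρ / r ^ 4 := by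
    rw [div_sub_div _ _ hDpos.ne' (by positivity), abs_div, abs_of_pos (by positivity : 0 < D * r ^ 3),
      show 4 * r ^ 3 - D * 2 = 2 * (2 * r ^ 3 - D) by ring, abs_mul, abs_two,
      div_le_div_iff₀ (by positivity) (by positivity)]
    calc 2 * |2 * r ^ 3 - D| * r ^ 4 ≤ 2 * (10 * r ^ 2 * ρ) * r ^ 4 := by gcongr
      _ = 80 * ρ * (r ^ 3 / 4 * r ^ 3) := by ring
      _ ≤ 80 * ρ * (D * r ^ 3) := by gcongr
  have e : 1 / a - 1 / b - 2 * height x * w 2 / r ^ 3 = height x * w 2 * (4 / D - 2 / r ^ 3) := by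
    have : 1 / a - 1 / b = 4 * height x * w 2 / D := by
      rw [← hsq, hD]; field_simp; ring
    rw [this]; ring
  rw [e, abs_mul, abs_mul]
  calc |height x| * |w 2| * |4 / D - 2 / r ^ 3| ≤ |height x| * ρ * (80 * ρ / r ^ 4) :=
        mul_le_mul (mul_le_mul_of_nonneg_left (PiLp.norm_apply_le w 2) (abs_nonneg _)) hc
          (abs_nonneg _) (by positivity)
    _ = _ := by ring

/-- The statement `DipoleStmt`. -/
theorem dipoleStmt : DipoleStmt := by
  intro l g u Dg Du eg eu e' hZ C
  obtain ⟨lam₀, ε₀, K, hl, -, hε₀, hdec⟩ := mol_decay hZ C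
  set ε := min ε₀ 1
  have hε : 0 < ε := lt_min hε₀ one_pos
  have hε1 : ε ≤ 1 := min_le_right _ _
  obtain ⟨lam₁, d, hl₁, hd, hmom⟩ := dipole_moment hZ C ε K hε
  set A := |K| * (320 / ε ^ 2) with hA
  set B := |K| * (2 / ε + 100) with hB
  set R := max 1 (2 * A / d) with hR
  refine ⟨min lam₀ lam₁, R, B, d / 2, ε / 2, lt_min hl hl₁, le_max_left _ _, half_pos hd,
    half_pos hε, fun lam hlam E3 f D E2 χ Dχ Es χs Ds Et χt Dt hM x hx => ?_⟩
  obtain ⟨-, hb, hbs, -⟩ := hdec lam ⟨hlam.1, hlam.2.trans_le (min_le_left _ _)⟩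
    _ _ _ _ _ _ _ _ _ _ _ _ hM ε ⟨hε, min_le_left _ _⟩
  have hD := hmom lam ⟨hlam.1, hlam.2.trans_le (min_le_right _ _)⟩
    _ _ _ _ _ _ _ _ _ _ _ _ hM hb hbs
  have hK := hb.const_nonneg
  have hr1 : 1 ≤ ‖x‖ := (le_max_left _ _).trans hx
  have hr : 0 < ‖x‖ := zero_lt_one.trans_le hr1
  have hx0 : x ≠ 0 := norm_pos_iff.1 hr
  set r := ‖x‖
  set z := height x
  have hzr : |z| ≤ r := PiLp.norm_apply_le x 2
  set m := fun k => ∫ y : Cfg 2, height (y k) * χ y * χs y
  set dk := fun (k : Fin 2) (y : Cfg 2) => 1 / ‖x - y k‖ - 1 / ‖mirror x - y k‖ with hdk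
  set el := Real.exp (-(ε / 2 * r)) with hel
  -- the coupling as half the difference of the two mirror images
  have irep : ∀ p : Space, Integrable fun y => repel p y * χ y * χs y := fun p =>
    (hb.repel_le hε hε1 p).1.1.integrable_mul hbs.inH1.memLp
  have hodd : ∫ y, repel x y * χ y * χs y = -∫ y, repel (mirror x) y * χ y * χs y := by
    rw [← integral_neg, ← (measurePreserving_mirL fun _ : Fin 2 => true).integral_comp
      (mirL fun _ : Fin 2 => true).toHomeomorph.measurableEmbedding fun y => repel x y * χ y * χs y]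
    refine integral_congr_ae ?_
    filter_upwards [hM.ion.parity, hM.singlet.parity] with y h1 h2
    have e : (mirL (fun _ : Fin 2 => true) y : Cfg 2) = fun k => mirror (y k) := by
      funext k; simp [mirL_apply]
    rw [e, repel_mirror, h1, h2]
    ring
  have ik : ∀ k, Integrable fun y => dk k y * χ y * χs y := by
    intro k
    have hp : ∀ p : Space, Integrable fun y => 1 / ‖p - y k‖ * χ y * χs y := fun p => by
      refine ((hb.hardy hε.le hε1 p k).1.integrable_mul hbs.inH1.memLp).mono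
        ((((by fun_prop : Measurable fun y : Cfg 2 => 1 / ‖p - y k‖)).aestronglyMeasurable.mul
          hb.inH1.memLp.1).mul hbs.inH1.memLp.1) (Eventually.of_forall fun y => ?_)
      rw [one_div_mul_eq_div, norm_mul, Pi.mul_apply, norm_mul, norm_mul (weight ε 0 y)]
      refine mul_le_mul_of_nonneg_right (le_mul_of_one_le_left (norm_nonneg _) ?_) (norm_nonneg _)
      rw [Real.norm_eq_abs]
      exact (one_le_weight hε.le y).trans (le_abs_self _)
    refine ((hp x).sub (hp (mirror x))).congr (Eventually.of_forall fun y => ?_)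
    simp only [Pi.sub_apply, hdk]; ring
  have im : ∀ k, Integrable fun y : Cfg 2 => height (y k) * χ y * χs y := fun k =>
    (hb.moment hε k).1.integrable_mul hbs.inH1.memLp
  have htwo : 2 * ∫ y, repel x y * χ y * χs y = ∑ k, ∫ y, dk k y * χ y * χs y := by
    rw [← integral_finsetSum _ fun k _ => ik k, two_mul]
    nth_rw 2 [hodd]
    rw [← sub_eq_add_neg, ← integral_sub (irep x) (irep (mirror x))]
    refine integral_congr_ae (Eventually.of_forall fun y => ?_)
    simp only [repel, hdk, Fin.sum_univ_two]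
    ring
  -- one slot
  have hone : ∀ k, |(∫ y, dk k y * χ y * χs y) - 2 * z / r ^ 3 * m k| ≤
      A * |z| / r ^ 4 + B * el := by
    intro k
    set c₁ := 320 / ε ^ 2 * |z| / r ^ 4 + 2 / ε * el with hc₁
    set P := fun y => c₁ * (((weight ε 0 y * χ y) ^ 2 + (weight ε 0 y * χs y) ^ 2) / 2) +
      el * (((weight ε 0 y * (χ y / ‖x - y k‖)) ^ 2 + (weight ε 0 y * χs y) ^ 2) / 2) +
      el * (((weight ε 0 y * (χ y / ‖mirror x - y k‖)) ^ 2 + (weight ε 0 y * χs y) ^ 2) / 2)
      with hP
    have jA := hb.mem.integrable_sq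
    have jS := hbs.mem.integrable_sq
    have jX := (hb.hardy hε.le hε1 x k).1.integrable_sq
    have jM := (hb.hardy hε.le hε1 (mirror x) k).1.integrable_sq
    have t1 : Integrable fun y =>
        c₁ * (((weight ε 0 y * χ y) ^ 2 + (weight ε 0 y * χs y) ^ 2) / 2) :=
      ((jA.add jS).div_const 2).const_mul c₁
    have t2 : ∀ p : Space, Integrable fun y =>
        el * (((weight ε 0 y * (χ y / ‖p - y k‖)) ^ 2 + (weight ε 0 y * χs y) ^ 2) / 2) :=
      fun p => ((((hb.hardy hε.le hε1 p k).1.integrable_sq).add jS).div_const 2).const_mul el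
    have hPi : Integrable P := (t1.fun_add (t2 x)).fun_add (t2 _)
    have hc0 : 0 ≤ c₁ := by positivity
    have hpt : ∀ y, ‖dk k y * χ y * χs y - 2 * z / r ^ 3 * (height (y k) * χ y * χs y)‖ ≤ P y := by
      intro y
      obtain ⟨ha, hb2, hc⟩ := norms_le_weight hε y k
      set Wt := weight ε 0 y
      have hW : 1 ≤ Wt := one_le_weight hε.le y
      have hW0 : 0 ≤ Wt := by linarith
      have am : ∀ p q : ℝ, |p| * |q| ≤ (p ^ 2 + q ^ 2) / 2 := fun p q => by
        nlinarith [sq_nonneg (|p| - |q|), sq_abs p, sq_abs q]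
      have key : |dk k y - 2 * z / r ^ 3 * height (y k)| * (|χ y| * |χs y|) ≤
          c₁ * (|Wt * χ y| * |Wt * χs y|) + el * (|Wt * (χ y / ‖x - y k‖)| * |Wt * χs y|) +
            el * (|Wt * (χ y / ‖mirror x - y k‖)| * |Wt * χs y|) := by
        simp only [abs_mul, abs_div, abs_norm, abs_of_nonneg hW0]
        rcases le_or_gt ‖y k‖ (r / 2) with hw | hw
        · have h1 : |dk k y - 2 * z / r ^ 3 * height (y k)| ≤ 320 / ε ^ 2 * |z| / r ^ 4 * (Wt * Wt) := by
            have := inv_dist_mirror_linear x (y k) hx0 hw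
            rw [show dk k y - 2 * z / r ^ 3 * height (y k) = 1 / ‖x - y k‖ -
              1 / ‖mirror x - y k‖ - 2 * height x * y k 2 / ‖x‖ ^ 3 by
                simp only [hdk, height, z, r]; ring]
            refine this.trans ?_
            calc 80 * |z| * ‖y k‖ ^ 2 / r ^ 4 ≤ 80 * |z| * (4 / ε ^ 2 * (Wt * Wt)) / r ^ 4 := by
                  gcongr
                  exact hb2.trans (mul_le_mul_of_nonneg_left (le_mul_of_one_le_left hW0 hW)
                    (by positivity))
              _ = _ := by ring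
          calc _ ≤ 320 / ε ^ 2 * |z| / r ^ 4 * (Wt * Wt) * (|χ y| * |χs y|) :=
                mul_le_mul_of_nonneg_right h1 (by positivity)
            _ ≤ c₁ * (Wt * Wt) * (|χ y| * |χs y|) := by
                gcongr; exact le_add_of_nonneg_right (by positivity)
            _ = c₁ * (Wt * |χ y| * (Wt * |χs y|)) := by ring
            _ ≤ _ := by
                rw [add_assoc]; exact le_add_of_nonneg_right (by positivity)
        · have h5 : 1 ≤ el * Wt := by
            calc (1 : ℝ) = el * Real.exp (ε * (r / 2)) := by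
                  rw [hel, ← Real.exp_add, show -(ε / 2 * r) + ε * (r / 2) = 0 by ring,
                    Real.exp_zero]
              _ ≤ el * Wt := mul_le_mul_of_nonneg_left
                  ((Real.exp_le_exp.2 (mul_le_mul_of_nonneg_left hw.le hε.le)).trans hc)
                  (Real.exp_pos _).le
          have h6 : 1 ≤ el * (Wt * Wt) := by
            rw [← mul_assoc]; exact h5.trans (le_mul_of_one_le_right (by positivity) hW)
          have hlin : |2 * z / r ^ 3 * height (y k)| ≤ 2 / ε * el * (Wt * Wt) := by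
            rw [abs_mul, abs_div, abs_mul, abs_two, abs_of_pos (pow_pos hr 3)]
            have hz : 2 * |z| / r ^ 3 ≤ 2 := by
              rw [div_le_iff₀ (pow_pos hr 3)]
              nlinarith [pow_le_pow_right₀ hr1 (show 1 ≤ 3 by norm_num)]
            calc 2 * |z| / r ^ 3 * |height (y k)| ≤ 2 * (Wt / ε) :=
                  mul_le_mul hz ((PiLp.norm_apply_le (y k) 2).trans ha) (abs_nonneg _) zero_le_two
              _ = 2 / ε * Wt * 1 := by ring
              _ ≤ 2 / ε * Wt * (el * Wt) := mul_le_mul_of_nonneg_left h5 (by positivity)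
              _ = _ := by ring
          have h7 : |dk k y| ≤ el * (Wt * Wt) * (1 / ‖x - y k‖ + 1 / ‖mirror x - y k‖) := by
            refine le_trans ?_ (le_mul_of_one_le_left (by positivity) h6)
            simp only [hdk]
            refine (abs_sub _ _).trans ?_
            rw [abs_div, abs_div, abs_one, abs_norm, abs_norm]
          calc _ ≤ (el * (Wt * Wt) * (1 / ‖x - y k‖ + 1 / ‖mirror x - y k‖) +
                2 / ε * el * (Wt * Wt)) * (|χ y| * |χs y|) :=
                mul_le_mul_of_nonneg_right ((abs_sub _ _).trans (add_le_add h7 hlin))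
                  (by positivity)
            _ = 2 / ε * el * (Wt * |χ y| * (Wt * |χs y|)) +
                el * (Wt * (|χ y| / ‖x - y k‖) * (Wt * |χs y|)) +
                el * (Wt * (|χ y| / ‖mirror x - y k‖) * (Wt * |χs y|)) := by ring
            _ ≤ _ := by
                gcongr
                exact le_add_of_nonneg_left (by positivity)
      calc ‖dk k y * χ y * χs y - 2 * z / r ^ 3 * (height (y k) * χ y * χs y)‖
          = |dk k y - 2 * z / r ^ 3 * height (y k)| * (|χ y| * |χs y|) := by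
            rw [Real.norm_eq_abs, ← abs_mul (χ y), ← abs_mul]; congr 1; ring
        _ ≤ _ := key
        _ ≤ P y := by
            simp only [hP]
            gcongr
            · exact am _ _
            · exact am _ _
            · exact am _ _
    have hle := (norm_integral_le_integral_norm
      fun y => dk k y * χ y * χs y - 2 * z / r ^ 3 * (height (y k) * χ y * χs y)).trans
      (integral_mono ((ik k).sub ((im k).const_mul _)).norm hPi hpt)
    rw [Real.norm_eq_abs, integral_sub (ik k) ((im k).const_mul _), integral_const_mul] at hle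
    refine hle.trans ?_
    rw [hP, integral_add (t1.fun_add (t2 x)) (t2 _), integral_add t1 (t2 x), integral_const_mul,
      integral_const_mul, integral_const_mul, integral_div, integral_div, integral_div,
      integral_add jA jS, integral_add jX jS, integral_add jM jS]
    have hK' : K ≤ |K| := le_abs_self K
    have e1 : ((∫ y, (weight ε 0 y * χ y) ^ 2) + ∫ y, (weight ε 0 y * χs y) ^ 2) / 2 ≤ |K| := by
      linarith [hb.le, hbs.le]
    have e2 : ∀ p : Space, ((∫ y, (weight ε 0 y * (χ y / ‖p - y k‖)) ^ 2) +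
        ∫ y, (weight ε 0 y * χs y) ^ 2) / 2 ≤ 50 * |K| := fun p => by
      linarith [(hb.hardy hε.le hε1 p k).2, hbs.le]
    calc _ ≤ c₁ * |K| + el * (50 * |K|) + el * (50 * |K|) :=
          add_le_add (add_le_add (mul_le_mul_of_nonneg_left e1 hc0)
            (mul_le_mul_of_nonneg_left (e2 x) (Real.exp_pos _).le))
            (mul_le_mul_of_nonneg_left (e2 _) (Real.exp_pos _).le)
      _ = _ := by rw [hA, hB, hc₁]; ring
  have hDk : d ≤ m 0 + m 1 := by simpa [m, Fin.sum_univ_two] using hD
  have h0 := abs_le.1 (hone 0)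
  have h1 := abs_le.1 (hone 1)
  rw [Fin.sum_univ_two] at htwo
  show d / 2 * z ^ 2 / r ^ 3 - B * |z| * el ≤ z * ∫ y, repel x y * χ y * χs y
  set H := ∫ y, repel x y * χ y * χs y
  have hH : |H - z / r ^ 3 * (m 0 + m 1)| ≤ A * |z| / r ^ 4 + B * el := by
    rw [abs_le]
    have : z / r ^ 3 * (m 0 + m 1) = (2 * z / r ^ 3 * m 0 + 2 * z / r ^ 3 * m 1) / 2 := by ring
    constructor <;> linarith [h0.1, h0.2, h1.1, h1.2]
  have hz2 : A * |z| / r ^ 4 * |z| ≤ d / 2 * z ^ 2 / r ^ 3 := by
    have hAr : A ≤ d / 2 * r := by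
      have := (le_max_right _ _).trans hx
      rw [div_le_iff₀ hd] at this
      linarith
    calc A * |z| / r ^ 4 * |z| = A * z ^ 2 / r ^ 4 := by rw [← sq_abs z]; ring
      _ ≤ d / 2 * r * z ^ 2 / r ^ 4 := by gcongr
      _ = _ := by field_simp
  have hz : |z * (H - z / r ^ 3 * (m 0 + m 1))| ≤ |z| * (A * |z| / r ^ 4 + B * el) := by
    rw [abs_mul]; exact mul_le_mul_of_nonneg_left hH (abs_nonneg _)
  have hmain : d * (z ^ 2 / r ^ 3) ≤ (m 0 + m 1) * (z ^ 2 / r ^ 3) :=
    mul_le_mul_of_nonneg_right hDk (by positivity)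
  have e4 : z * (H - z / r ^ 3 * (m 0 + m 1)) = z * H - (m 0 + m 1) * (z ^ 2 / r ^ 3) := by ring
  rw [e4] at hz
  have e5 : d / 2 * z ^ 2 / r ^ 3 = d * (z ^ 2 / r ^ 3) / 2 := by ring
  have e6 : |z| * (A * |z| / r ^ 4 + B * el) = A * |z| / r ^ 4 * |z| + B * |z| * el := by ring
  rw [e5] at hz2 ⊢
  linarith [(abs_le.1 hz).1]

end Vale.Agent.P363.Inter
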