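import Vale.Agent.P363.Inter.Ion.Gap

/-!
P363, interacting side: the ion in the field of a distant point charge has its lowest energies
above `E + 2 lam / r` up to `lam / r ^ 2`.
-/

noncomputable section

namespace Vale.Agent.P363.Inter

open MeasureTheory Filter
open scoped BigOperators Topology
open Exist

theorem norm_le_weight {ε : ℝ} (hε : 0 < ε) (y : Cfg 2) (k : Fin 2) :
    ‖y k‖ ≤ 1 / (2 * ε) * weight ε 0 y ^ 2 := by
  have h1 : ‖y k‖ ≤ ∑ j, √(1 + ‖y j‖ ^ 2) / (1 + 0 * √(1 + ‖y j‖ ^ 2)) := by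
    simp only [zero_mul, add_zero, div_one]
    refine le_trans ?_ (Finset.single_le_sum (f := fun j => √(1 + ‖y j‖ ^ 2))
      (fun j _ => Real.sqrt_nonneg _) (Finset.mem_univ k))
    exact Real.le_sqrt_of_sq_le (by linarith)
  rw [weight, ← Real.exp_nat_mul, div_mul_eq_mul_div, one_mul, le_div_iff₀ (by positivity)]
  refine le_trans ?_ (Real.add_one_le_exp _)
  push_cast
  nlinarith

/-- The shortfall of the repulsion of a distant charge below `2 / r`, squared against a state. -/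
theorem far_form_bound {l lam E δ K ε : ℝ} {χ : Cfg 2 → ℝ} (hlam : 0 ≤ lam) (hδ : 8 * lam ≤ δ)
    (hε : 0 < ε) (hχ : MemLp χ 2) (hχ1 : mass χ = 1)
    (hw : MemLp (fun y => weight ε 0 y * χ y) 2) (hwK : nrmN (fun y => weight ε 0 y * χ y) ≤ K)
    {ξ : Cfg 2 → ℝ} (hξ : IsRealTest ξ)
    (hgap : E * mass ξ + δ / 2 * (mass ξ - ip χ ξ ^ 2) ≤ formQ l lam ξ) {x : Space}
    (hx : 1 ≤ ‖x‖) :
    (E + 2 * lam / ‖x‖ - 2 * K ^ 2 / ε * lam / ‖x‖ ^ 2) * mass ξ ≤
      formQ l lam ξ + lam * ∫ y, repel x y * ξ y ^ 2 := by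
  set r := ‖x‖ with hr
  have hr0 : 0 < r := one_pos.trans_le hx
  set c := ip χ ξ with hc
  set s : Cfg 2 → ℝ := fun y => ∑ k, ‖y k‖ / (r * (r + ‖y k‖)) with hs
  have hs0 : ∀ y, 0 ≤ s y := fun y => Finset.sum_nonneg fun k _ => by positivity
  have hs2 : ∀ y, s y ≤ 2 / r := fun y => by
    have h : ∀ k, ‖y k‖ / (r * (r + ‖y k‖)) ≤ 1 / r := fun k => by
      rw [div_le_div_iff₀ (by positivity) hr0]
      nlinarith [norm_nonneg (y k)]
    exact (Finset.sum_le_sum fun k _ => h k).trans (le_of_eq (by simp; ring))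
  have hsw : ∀ y, s y ≤ 1 / (r ^ 2 * ε) * weight ε 0 y ^ 2 := fun y => by
    have h : ∀ k, ‖y k‖ / (r * (r + ‖y k‖)) ≤ 1 / (2 * r ^ 2 * ε) * weight ε 0 y ^ 2 := fun k => by
      calc ‖y k‖ / (r * (r + ‖y k‖)) ≤ ‖y k‖ / r ^ 2 := by
            rw [sq]; gcongr; linarith [norm_nonneg (y k)]
        _ ≤ (1 / (2 * ε) * weight ε 0 y ^ 2) / r ^ 2 := by
            gcongr; exact norm_le_weight hε y k
        _ = _ := by ring
    exact (Finset.sum_le_sum fun k _ => h k).trans (le_of_eq (by simp; ring))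
  have hrep : ∀ᵐ y : Cfg 2, 2 / r - s y ≤ repel x y := by
    have hne : ∀ᵐ y : Cfg 2, ∀ k, y k ≠ x := ae_all_iff.2 fun k => ae_slot k (One.ae_ne x)
    filter_upwards [hne] with y hy
    have h : ∀ k, 1 / r - ‖y k‖ / (r * (r + ‖y k‖)) ≤ 1 / ‖x - y k‖ := fun k => by
      have hd : 0 < ‖x - y k‖ := norm_pos_iff.2 (sub_ne_zero.2 (Ne.symm (hy k)))
      have he : 1 / r - ‖y k‖ / (r * (r + ‖y k‖)) = 1 / (r + ‖y k‖) := by field_simp; ring
      rw [he]
      exact one_div_le_one_div_of_le hd (norm_sub_le x (y k))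
    refine le_trans (le_of_eq ?_) (Finset.sum_le_sum fun k _ => h k)
    simp only [hs, Finset.sum_sub_distrib, Finset.sum_const, Finset.card_univ, Fintype.card_fin,
      nsmul_eq_mul]
    push_cast
    ring
  set τ : Cfg 2 → ℝ := (1 : ℝ) • ξ + (-c) • χ with hτ
  have hξm := memLp_test hξ
  have hτm : MemLp τ 2 := (hξm.const_smul _).add (hχ.const_smul _)
  have hτ1 : mass τ = mass ξ - c ^ 2 := by
    rw [hτ, mass_comb _ _ hξm hχ, hχ1, ip_comm ξ χ, ← hc]; ring
  have hsm : Measurable s := by rw [hs]; fun_prop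
  have hsξ : Integrable fun y => s y * ξ y ^ 2 := by
    refine (hξm.integrable_sq.const_mul (2 / r)).mono'
      (hsm.aestronglyMeasurable.mul (hξm.1.pow 2)) (Eventually.of_forall fun y => ?_)
    rw [Real.norm_eq_abs, abs_of_nonneg (mul_nonneg (hs0 y) (sq_nonneg _))]
    exact mul_le_mul_of_nonneg_right (hs2 y) (sq_nonneg _)
  have hS : ∫ y, s y * ξ y ^ 2 ≤
      2 * c ^ 2 * (1 / (r ^ 2 * ε)) * K ^ 2 + 4 / r * (mass ξ - c ^ 2) := by
    have i1 := hw.integrable_sq.const_mul (2 * c ^ 2 * (1 / (r ^ 2 * ε)))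
    have i2 := hτm.integrable_sq.const_mul (4 / r)
    refine (integral_mono hsξ (i1.add i2) fun y => ?_).trans ?_
    · have e : ξ y = c * χ y + τ y := by simp [hτ]
      have a1 : ξ y ^ 2 ≤ 2 * (c * χ y) ^ 2 + 2 * τ y ^ 2 := by
        rw [e]; nlinarith [sq_nonneg (c * χ y - τ y)]
      have a2 := mul_le_mul_of_nonneg_left a1 (hs0 y)
      have a3 := mul_le_mul_of_nonneg_right (hsw y) (sq_nonneg (c * χ y))
      have a4 := mul_le_mul_of_nonneg_right (hs2 y) (sq_nonneg (τ y))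
      simp only [Pi.add_apply]
      have e2 : 2 * c ^ 2 * (1 / (r ^ 2 * ε)) * (weight ε 0 y * χ y) ^ 2 + 4 / r * τ y ^ 2 =
          2 * (1 / (r ^ 2 * ε) * weight ε 0 y ^ 2 * (c * χ y) ^ 2) +
            2 * (2 / r * τ y ^ 2) := by ring
      linarith
    · rw [integral_add' i1 i2, integral_const_mul, integral_const_mul, ← hτ1]
      refine add_le_add (mul_le_mul_of_nonneg_left ?_ (by positivity)) (le_of_eq rfl)
      have h := pow_le_pow_left₀ (Real.sqrt_nonneg _) hwK 2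
      simp only [ipN_self, Real.sq_sqrt (mass_nonneg _)] at h
      exact h
  have hrep' : Integrable fun y => repel x y * ξ y ^ 2 := by
    simp only [repel, Finset.sum_mul]
    refine integrable_finsetSum _ fun k _ => ?_
    have h := (coulomb_real hξ (P349.slotProj k) (P349.slotProj_slotVec k) x).1
    simp only [P349.slotProj_apply] at h
    refine h.congr (Eventually.of_forall fun y => ?_)
    show ξ y ^ 2 / ‖y k - x‖ = 1 / ‖x - y k‖ * ξ y ^ 2
    rw [norm_sub_rev]; ring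
  have hR : 2 / r * mass ξ - ∫ y, s y * ξ y ^ 2 ≤ ∫ y, repel x y * ξ y ^ 2 := by
    rw [mass, ← integral_const_mul, ← integral_sub (hξm.integrable_sq.const_mul _) hsξ]
    refine integral_mono_ae ((hξm.integrable_sq.const_mul _).sub hsξ) hrep' ?_
    filter_upwards [hrep] with y hy
    rw [← sub_mul]
    exact mul_le_mul_of_nonneg_right hy (sq_nonneg _)
  have hc2 : c ^ 2 ≤ mass ξ := by linarith [mass_nonneg τ]
  have h1 := mul_le_mul_of_nonneg_left hR hlam
  have h2 := mul_le_mul_of_nonneg_left hS hlam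
  have h3 : lam * (4 / r * (mass ξ - c ^ 2)) ≤ δ / 2 * (mass ξ - c ^ 2) := by
    rw [← mul_assoc]
    refine mul_le_mul_of_nonneg_right ?_ (by linarith)
    have : lam * (4 / r) ≤ lam * 4 := mul_le_mul_of_nonneg_left (div_le_self (by norm_num) hx) hlam
    linarith
  have h4 : lam * (2 * c ^ 2 * (1 / (r ^ 2 * ε)) * K ^ 2) ≤
      2 * K ^ 2 / ε * lam / r ^ 2 * mass ξ := by
    rw [show lam * (2 * c ^ 2 * (1 / (r ^ 2 * ε)) * K ^ 2) =
      2 * K ^ 2 / ε * lam / r ^ 2 * c ^ 2 by ring]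
    exact mul_le_mul_of_nonneg_left hc2 (by positivity)
  have e : (E + 2 * lam / r - 2 * K ^ 2 / ε * lam / r ^ 2) * mass ξ =
      E * mass ξ + lam * (2 / r * mass ξ) - 2 * K ^ 2 / ε * lam / r ^ 2 * mass ξ := by ring
  rw [e]
  linarith

/-- The ion with a distant point charge. -/
theorem ionFar (hR : RepelStmt) : IonFarStmt := by
  intro l g u Dg Du eg eu e' hz C
  obtain ⟨lam₁, ε, K, hlam₁, hε, hmom⟩ := hR l g u Dg Du eg eu e' hz C
  obtain ⟨a, ha, ha1, hsa⟩ := small_coupling (C := C) (sub_pos.2 hz.eg_lt)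
  obtain ⟨b, hb, -, hsb⟩ := small_coupling (C := C) (sub_pos.2 hz.eu_lt)
  set m := min (eu - eg) (e' - eu) / 8 with hm
  have hm0 : 0 < m := div_pos (lt_min (sub_pos.2 hz.eg_lt) (sub_pos.2 hz.eu_lt)) (by norm_num)
  refine ⟨min (min lam₁ m) (min a b), 2 * |K| ^ 2 / ε, lt_min (lt_min hlam₁ hm0) (lt_min ha hb),
    fun lam hlam E3 f D E2 χ Dχ Es χs Ds Et χt Dt hM x hx ξ hξ => ?_⟩
  have h1 : lam < lam₁ := hlam.2.trans_le ((min_le_left _ _).trans (min_le_left _ _))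
  have h2 : lam < m := hlam.2.trans_le ((min_le_left _ _).trans (min_le_right _ _))
  have hla : lam < a := hlam.2.trans_le ((min_le_right _ _).trans (min_le_left _ _))
  have hlb : lam < b := hlam.2.trans_le ((min_le_right _ _).trans (min_le_right _ _))
  have hI : lam ∈ Set.Icc (0 : ℝ) 1 := ⟨hlam.1.le, hla.le.trans ha1⟩
  have hw := (hmom lam ⟨hlam.1, h1⟩ E3 f D E2 χ Dχ Es χs Ds Et χt Dt hM).1
  have hmin1 := min_le_left (eu - eg) (e' - eu)
  have hmin2 := min_le_right (eu - eg) (e' - eu)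
  rw [hm] at h2
  obtain ⟨hwχ, hwχK⟩ := hw χ (by simp) 0 le_rfl
  obtain ⟨hwt, hwtK⟩ := hw χt (by simp) 0 le_rfl
  rw [ipN_self]
  refine ⟨far_form_bound hlam.1.le (δ := eu - eg) (by linarith) hε hM.ion.lowest.lim.1
      hM.ion.lowest.mass_one hwχ (hwχK.trans (le_abs_self K)) hξ
      (ion_gap hz hI hM.ion (hsa lam ⟨hlam.1, hla⟩) hξ) hx, fun ha => ?_⟩
  exact far_form_bound hlam.1.le (δ := e' - eu) (by linarith) hε
    hM.triplet.lowest.lim.1 hM.triplet.lowest.mass_one hwt (hwtK.trans (le_abs_self K)) hξ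
    (triplet_gap hz hI hM.triplet (hsb lam ⟨hlam.1, hlb⟩) hξ ha) hx

end Vale.Agent.P363.Inter
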