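import Vale.Agent.P363.Inter.Bar.Spec
import Vale.Agent.P363.Exist.States

/-!
P363, interacting side: the gaps of the coupled ion above its lowest states, carried over from
the uncoupled gaps, and the existence of the molecular states at weak coupling.
-/

noncomputable section

namespace Vale.Agent.P363.Inter

open MeasureTheory Filter
open scoped BigOperators Topology
open Exist

variable {l lam : ℝ}

theorem ipN_eq_ip {n : ℕ} (f h : Cfg n → ℝ) : ipN f h = ip f h := rfl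

theorem ipN_self {n : ℕ} (f : Cfg n → ℝ) : ipN f f = mass f := ip_self f

/-- Approximants of a lowest state along which the form tends to its lowest value. -/
theorem lowest_approx {n : ℕ} {P : (Cfg n → ℝ) → Prop} {E : ℝ} {χ : Cfg n → ℝ}
    {D : Fin n → Fin 3 → Cfg n → ℝ} (h : IsLowest l lam P E χ D) (hl : lam ∈ Set.Icc (0 : ℝ) 1) :
    ∃ φ : ℕ → Cfg n → ℝ, (∀ k, IsRealTest (φ k) ∧ P (φ k)) ∧
      Tendsto (fun k => mass (φ k - χ)) atTop (𝓝 0) ∧
      (∀ η, IsRealTest η → Tendsto (fun k => (molSys n l lam).bil E (φ k) η) atTop (𝓝 0)) ∧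
      Tendsto (fun k => (molSys n l lam).bil E (φ k) (φ k)) atTop (𝓝 0) := by
  obtain ⟨hm, hD, φ, hφ, hv, hg⟩ := h.lim
  have hS := molSys_good n l hl
  have hA : (molSys n l lam).Approx φ χ (fun p => D p.1 p.2) :=
    ⟨fun k => (hφ k).1, hm, fun p => hD p.1 p.2, hv, fun p => hg p.1 p.2⟩
  have hweak : ∀ η, IsRealTest η →
      Tendsto (fun k => (molSys n l lam).bil E (φ k) η) atTop (𝓝 0) := by
    intro η hη
    have hc := Sys.Approx.const (molSys n l lam) hη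
    have ht := (hA.tendsto_bil hc hS E).2
    rw [bilLim_eq hA hc hS E] at ht
    have hw := h.weak η hη
    simp only [molSys, Fintype.sum_prod_type, dir_dirs] at ht
    rw [hw] at ht
    exact ht
  refine ⟨φ, hφ, hv, hweak, ?_⟩
  have hsel : ∀ k, ∃ m, k ≤ m ∧ |(molSys n l lam).bil E (φ m) (φ k)| < 1 / (k + 1 : ℝ) := by
    intro k
    have h1 : ∀ᶠ m in atTop, |(molSys n l lam).bil E (φ m) (φ k)| < 1 / (k + 1 : ℝ) :=
      (hweak (φ k) (hφ k).1).abs.eventually (Iio_mem_nhds (by rw [abs_zero]; positivity))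
    obtain ⟨m, hm⟩ := ((eventually_ge_atTop k).and h1).exists
    exact ⟨m, hm.1, hm.2⟩
  choose σ hσ hσ' using hsel
  have hσt : Tendsto σ atTop atTop := tendsto_atTop_mono hσ tendsto_id
  have hA' : (molSys n l lam).Approx (fun k => φ (σ k)) χ (fun p => D p.1 p.2) :=
    ⟨fun k => (hφ _).1, hm, fun p => hD p.1 p.2, hv.comp hσt, fun p => (hg p.1 p.2).comp hσt⟩
  have h1 := (hA'.tendsto_bil hA hS E).2
  have h2 : Tendsto (fun k => (molSys n l lam).bil E (φ (σ k)) (φ k)) atTop (𝓝 0) :=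
    squeeze_zero_norm (fun k => (Real.norm_eq_abs _).trans_le (hσ' k).le)
      tendsto_one_div_add_atTop_nhds_zero_nat
  have h3 := (hA.tendsto_bil hA hS E).2
  rwa [tendsto_nhds_unique h1 h2] at h3

/-- An uncoupled gap above `G` gives half of it above the coupled lowest state near `G`. -/
theorem gap_transfer {n : ℕ} {P : (Cfg n → ℝ) → Prop} (hP : Closed P) {G χ : Cfg n → ℝ}
    {D : Fin n → Fin 3 → Cfg n → ℝ} {E E₀ δ C : ℝ} (hG : MemLp G 2) (hδ : 0 < δ)
    (hl : lam ∈ Set.Icc (0 : ℝ) 1) (h : IsLowest l lam P E χ D) (hE : E ≤ E₀ + C * lam)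
    (hclose : ∫ y, (χ y - G y) ^ 2 ≤ C * lam) (hsmall : (δ + 1) * (C * lam) ≤ δ / 2)
    (hgap : ∀ φ, IsRealTest φ → P φ →
      δ * (mass φ - ip G φ ^ 2) ≤ ∑ i, oneTerm l i φ - E₀ * mass φ)
    {ξ : Cfg n → ℝ} (hξ : IsRealTest ξ) (hξP : P ξ) :
    E * mass ξ + δ / 2 * (mass ξ - ip χ ξ ^ 2) ≤ formQ l lam ξ := by
  obtain ⟨φ, hφ, hv, hweak, hzero⟩ := lowest_approx h hl
  have hS := molSys_good n l hl
  have hχ : MemLp χ 2 := h.lim.1
  have hχ1 : mass χ = 1 := h.mass_one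
  have hξm := memLp_test hξ
  have hφm := fun k => memLp_test (hφ k).1
  set c := ip χ ξ with hc
  set θ : ℕ → Cfg n → ℝ := fun k => (1 : ℝ) • ξ + (-c) • φ k with hθ
  set τ : Cfg n → ℝ := (1 : ℝ) • ξ + (-c) • χ with hτ
  have hτm : MemLp τ 2 := (hξm.const_smul _).add (hχ.const_smul _)
  have hθt : ∀ k, IsRealTest (θ k) := fun k => isRealTest_comb _ _ hξ (hφ k).1
  have hθm := fun k => memLp_test (hθt k)
  have hlim : Tendsto (fun k => mass (θ k - τ)) atTop (𝓝 0) := by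
    have e : ∀ k, θ k - τ = (-c) • (φ k - χ) := fun k => by
      funext y; simp [hθ, hτ]; ring
    simpa only [e, mass_smul, mul_zero] using hv.const_mul ((-c) ^ 2)
  have hmass := tendsto_mass hθm hτm hlim
  have hipG := tendsto_ip (fun _ => hG) hθm hG hτm (tendsto_const_mass G) hlim
  have hbil : Tendsto (fun k => (molSys n l lam).bil E (θ k) (θ k)) atTop
      (𝓝 ((molSys n l lam).bil E ξ ξ)) := by
    have e : ∀ k, (molSys n l lam).bil E (θ k) (θ k) = (molSys n l lam).bil E ξ ξ -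
        2 * c * (molSys n l lam).bil E (φ k) ξ + c ^ 2 * (molSys n l lam).bil E (φ k) (φ k) :=
      fun k => by
        rw [hθ, (molSys n l lam).bil_comb_self hS E 1 (-c) hξ (hφ k).1,
          (molSys n l lam).bil_comm E ξ (φ k)]
        ring
    simp only [e]
    simpa using (((hweak ξ hξ).const_mul (2 * c)).const_sub _).add (hzero.const_mul (c ^ 2))
  have key : (E₀ - E) * mass τ + δ * (mass τ - ip G τ ^ 2) ≤ (molSys n l lam).bil E ξ ξ := by
    refine le_of_tendsto_of_tendsto'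
      ((hmass.const_mul (E₀ - E)).add ((hmass.sub (hipG.pow 2)).const_mul δ)) hbil fun k => ?_
    have h1 := hgap _ (hθt k) (hP 1 (-c) _ _ hξP (hφ k).2)
    have h2 := sum_oneTerm_le l hl (hθt k)
    rw [(molSys n l lam).bil_eq_form hS E (hθt k), form_molSys]
    linarith
  have hτc : ip χ τ = 0 := by
    rw [hτ, ip_comb' _ _ hχ hξm hχ, ip_self, hχ1, hc]; ring
  have hτ1 : mass τ = mass ξ - c ^ 2 := by
    rw [hτ, mass_comb _ _ hξm hχ, hχ1, ip_comm ξ χ, ← hc]; ring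
  have hGτ : ip G τ ^ 2 ≤ C * lam * mass τ := by
    have e : ip G τ = ip (G - χ) τ := by
      rw [sub_eq_comb, ip_comb _ _ hG hχ hτm, hτc]; ring
    have hd : mass (G - χ) ≤ C * lam := by rw [mass_sub_comm]; exact hclose
    rw [e]
    exact (ip_sq_le (hG.sub hχ) hτm).trans (mul_le_mul_of_nonneg_right hd (mass_nonneg τ))
  rw [(molSys n l lam).bil_eq_form hS E hξ, form_molSys] at key
  have h0 := mass_nonneg τ
  have h3 := mul_le_mul_of_nonneg_left hGτ hδ.le
  have h4 := mul_le_mul_of_nonneg_right hsmall h0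
  have h5 := mul_le_mul_of_nonneg_right (show -(C * lam) ≤ E₀ - E by linarith) h0
  rw [← hτ1]
  linarith

variable {eg eu e' : ℝ} {g u : Space → ℝ} {Dg Du : Fin 3 → Space → ℝ} {E : ℝ} {χ : Cfg 2 → ℝ}
  {D : Fin 2 → Fin 3 → Cfg 2 → ℝ} {C : ℝ}

theorem ion_gap (hz : ZeroOrder l g u Dg Du eg eu e') (hl : lam ∈ Set.Icc (0 : ℝ) 1)
    (h : TwoState l lam C (fun _ => True) 1 1 (2 * eg) (prod2 g g) (prod2Grad g g Dg Dg) E χ D)
    (hsmall : (eu - eg + 1) * (C * lam) ≤ (eu - eg) / 2) {ξ : Cfg 2 → ℝ} (hξ : IsRealTest ξ) :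
    E * mass ξ + (eu - eg) / 2 * (mass ξ - ip χ ξ ^ 2) ≤ formQ l lam ξ :=
  gap_transfer (P := fun _ => True) (fun _ _ _ _ _ _ => trivial) (memLp_prod2 hz.g_lim.1 hz.g_lim.1)
    (sub_pos.2 hz.eg_lt) hl h.lowest h.energy_le h.close hsmall (fun _ hφ _ => gap_ion hz hφ) hξ
    trivial

theorem triplet_gap (hz : ZeroOrder l g u Dg Du eg eu e') (hl : lam ∈ Set.Icc (0 : ℝ) 1)
    (h : TwoState l lam C Anti01 (-1) (-1) (eg + eu)
      (fun x => (prod2 g u x - prod2 u g x) / √2)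
      (fun i a x => (prod2Grad g u Dg Du i a x - prod2Grad u g Du Dg i a x) / √2) E χ D)
    (hsmall : (e' - eu + 1) * (C * lam) ≤ (e' - eu) / 2) {ξ : Cfg 2 → ℝ} (hξ : IsRealTest ξ)
    (ha : Anti01 ξ) :
    E * mass ξ + (e' - eu) / 2 * (mass ξ - ip χ ξ ^ 2) ≤ formQ l lam ξ := by
  have hG : (fun x => (prod2 g u x - prod2 u g x) / √2) = mix (-1) g u := by
    funext x; simp [mix]; ring
  refine gap_transfer (closed_anti 0) (memLp_mix (-1) hz.g_lim.1 hz.u_lim.1) (sub_pos.2 hz.eu_lt)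
    hl h.lowest h.energy_le ?_ hsmall (fun φ hφ hP => gap_triplet hz hφ hP) hξ ha
  rw [← hG]; exact h.close

theorem threeState_mono {C' : ℝ} {E : ℝ} {f : Cfg 3 → ℝ} {D : Fin 3 → Fin 3 → Cfg 3 → ℝ}
    (h : ThreeState l lam C g u Dg Du eg eu E f D) (hC : C ≤ C') (hlam : 0 ≤ lam) :
    ThreeState l lam C' g u Dg Du eg eu E f D := by
  have := mul_le_mul_of_nonneg_right hC hlam
  exact ⟨h.lowest, h.anti, h.odd, h.axis, h.energy_ge, by linarith [h.energy_le],
    h.close.trans this, fun i a => (h.close_grad i a).trans this⟩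

theorem small_coupling {δ C : ℝ} (hδ : 0 < δ) :
    ∃ lam₀ : ℝ, 0 < lam₀ ∧ lam₀ ≤ 1 ∧ ∀ lam ∈ Set.Ioo 0 lam₀, (δ + 1) * (C * lam) ≤ δ / 2 := by
  refine ⟨min 1 (δ / (2 * (δ + 1) * (|C| + 1))), lt_min one_pos (by positivity), min_le_left _ _,
    fun lam h => ?_⟩
  have h1 := (h.2.trans_le (min_le_right _ _)).le
  rw [le_div_iff₀ (by positivity)] at h1
  have h2 : C * lam ≤ (|C| + 1) * lam :=
    mul_le_mul_of_nonneg_right (by linarith [le_abs_self C]) h.1.le
  have h3 := mul_le_mul_of_nonneg_left h2 (by linarith : 0 ≤ δ + 1)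
  linarith

/-- The molecular states with the gap of the ion exist at weak coupling. -/
theorem molStateGoal : MolStateGoal := by
  intro l g u Dg Du eg eu e' hz
  obtain ⟨a, C3, ha, h3⟩ := threeGoal l g u Dg Du eg eu e' hz
  obtain ⟨b, C2, hb, h2⟩ := twoGoal l g u Dg Du eg eu e' hz
  set C := max C3 C2
  obtain ⟨c, hc, hc1, hsm⟩ := small_coupling (C := C) (sub_pos.2 hz.eg_lt)
  refine ⟨min a (min b c), C, lt_min ha (lt_min hb hc), fun lam hlam => ?_⟩
  have hla : lam < a := hlam.2.trans_le (min_le_left _ _)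
  have hlb : lam < b := hlam.2.trans_le ((min_le_right _ _).trans (min_le_left _ _))
  have hlc : lam < c := hlam.2.trans_le ((min_le_right _ _).trans (min_le_right _ _))
  have hI : lam ∈ Set.Icc (0 : ℝ) 1 := ⟨hlam.1.le, hlc.le.trans hc1⟩
  obtain ⟨E3, f, D, hf⟩ := h3 lam ⟨hlam.1, hla⟩
  obtain ⟨⟨E2, χ, Dχ, hχ⟩, ⟨Es, χs, Ds, hχs⟩, ⟨Et, χt, Dt, hχt⟩⟩ := h2 lam ⟨hlam.1, hlb⟩
  have hC : C2 ≤ C := le_max_right _ _
  refine ⟨E3, f, D, E2, χ, Dχ, Es, χs, Ds, Et, χt, Dt,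
    threeState_mono hf (le_max_left _ _) hlam.1.le, twoState_mono hχ hC hlam.1.le,
    twoState_mono hχs hC hlam.1.le, twoState_mono hχt hC hlam.1.le, fun ξ hξ => ?_⟩
  rw [ipN_self, ipN_eq_ip]
  exact ion_gap hz hI (twoState_mono hχ hC hlam.1.le) (hsm lam ⟨hlam.1, hlc⟩) hξ

end Vale.Agent.P363.Inter
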