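import Vale.Agent.P363.Inter.Slice.Repel
import Vale.Agent.P363.Inter.Bar.Spec
import Vale.Agent.P363.Exist.Gap

/-!
P363, interacting side: the dipole moment between the ion ground state and the odd singlet is
bounded below, uniformly for small coupling.
-/

noncomputable section

namespace Vale.Agent.P363.Inter

open MeasureTheory Filter Set
open scoped BigOperators Topology
open Vale.Agent.P363.Exist (ip mass memLp_prod2 ip_prod2 mix memLp_mix)

/-- `s` truncated at height `T`. -/
def clipT (T s : ℝ) : ℝ := max (-T) (min T s)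

theorem abs_clipT_le {T : ℝ} (hT : 0 ≤ T) (s : ℝ) : |clipT T s| ≤ T := by
  rw [abs_le, clipT]; exact ⟨le_max_left _ _, max_le (by linarith) (min_le_left _ _)⟩

theorem continuous_clipT (T : ℝ) : Continuous (clipT T) := by unfold clipT; fun_prop

theorem abs_sub_clipT_le {T : ℝ} (hT : 0 < T) (s : ℝ) : |s - clipT T s| ≤ s ^ 2 / T := by
  rw [le_div_iff₀ hT]
  rcases le_total |s| T with h | h
  · rw [abs_le] at h
    rw [clipT, min_eq_right h.2, max_eq_right h.1, sub_self, abs_zero, zero_mul]
    exact sq_nonneg s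
  · rw [← sq_abs s]
    rcases le_total 0 s with hs | hs
    · rw [abs_of_nonneg hs] at h ⊢
      rw [clipT, min_eq_left h, max_eq_right (by linarith), abs_of_nonneg (by linarith)]
      nlinarith
    · rw [abs_of_nonpos hs] at h ⊢
      rw [clipT, min_eq_right (by linarith), max_eq_left (by linarith), abs_of_nonpos (by linarith)]
      nlinarith

variable {l eg eu e' : ℝ} {g u : Space → ℝ} {Dg Du : Fin 3 → Space → ℝ}

/-- The truncated moment of the zero order levels. -/
theorem level_moment (hZ : ZeroOrder l g u Dg Du eg eu e') :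
    ∃ d : ℝ, 0 < d ∧ ∀ T : ℝ, 1 ≤ T → d ≤ ∫ p, clipT T (height p) * g p * u p := by
  have hneg : ∀ᵐ p : Space, height p < 0 → u p < 0 := by
    filter_upwards [hZ.u_odd, One.measurePreserving_mirror.quasiMeasurePreserving.ae hZ.u_pos]
      with p h1 h2 hp
    have := h2 (by rw [One.height_mirror]; linarith)
    linarith [this, h1]
  have key : ∀ T : ℝ, 1 ≤ T → ∀ᵐ p : Space, 0 ≤ clipT 1 (height p) * g p * u p ∧
      clipT 1 (height p) * g p * u p ≤ clipT T (height p) * g p * u p := by
    intro T hT
    filter_upwards [hZ.g_pos, hZ.u_pos, hneg] with p hg hu hn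
    rcases lt_trichotomy (height p) 0 with h | h | h
    · have hu' := hn h
      have e1 : clipT 1 (height p) ≤ 0 := by
        rw [clipT]; exact max_le (by norm_num) ((min_le_right _ _).trans h.le)
      have e2 : clipT T (height p) ≤ clipT 1 (height p) := by
        simp only [clipT]
        rw [min_eq_right (by linarith), min_eq_right (by linarith)]
        exact max_le_max (by linarith) le_rfl
      constructor <;> nlinarith [mul_pos hg (neg_pos.2 hu')]
    · simp [h, clipT, (zero_le_one.trans hT)]
    · have hu' := hu h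
      have e1 : 0 ≤ clipT 1 (height p) := by
        rw [clipT]; exact le_max_of_le_right (le_min zero_le_one h.le)
      have e2 : clipT 1 (height p) ≤ clipT T (height p) := by
        simp only [clipT]
        rw [max_eq_right (by linarith [le_min zero_le_one h.le]),
          max_eq_right (by linarith [le_min (zero_le_one.trans hT) h.le])]
        exact min_le_min hT le_rfl
      constructor <;> nlinarith [mul_pos hg hu']
  have hint : ∀ T : ℝ, 0 ≤ T → Integrable fun p => clipT T (height p) * g p * u p := fun T hT => by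
    refine ((hZ.g_lim.1.integrable_mul hZ.u_lim.1).bdd_mul (c := T)
      (((continuous_clipT T).comp (by unfold height; fun_prop :
        Continuous height)).aestronglyMeasurable)
      (Eventually.of_forall fun p => by
        rw [Real.norm_eq_abs]; exact abs_clipT_le hT _)).congr
      (Eventually.of_forall fun p => ?_)
    simp only [Function.comp_apply, Pi.mul_apply]
    ring
  refine ⟨∫ p, clipT 1 (height p) * g p * u p, ?_, fun T hT =>
    integral_mono_ae (hint 1 zero_le_one) (hint T (zero_le_one.trans hT))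
      ((key T hT).mono fun p h => h.2)⟩
  rw [integral_pos_iff_support_of_nonneg_ae ((key 1 le_rfl).mono fun p h => h.1)
    (hint 1 zero_le_one)]
  have hP : 0 < volume {p : Space | 0 < height p} := by
    refine (isOpen_lt continuous_const (by unfold height; fun_prop)).measure_pos _
      ⟨unit3 2, ?_⟩
    simp [height, unit3]
  refine hP.trans_le (measure_mono_ae ?_)
  filter_upwards [hZ.g_pos, hZ.u_pos] with p hg hu (hp : 0 < height p)
  show clipT 1 (height p) * g p * u p ≠ 0
  have : 0 < clipT 1 (height p) := by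
    rw [clipT]; exact lt_max_of_lt_right (lt_min one_pos hp)
  have := hu hp
  positivity

theorem IonBound.moment {ε K : ℝ} {φ : Cfg 2 → ℝ} {Dφ : Fin 2 → Fin 3 → Cfg 2 → ℝ}
    (h : IonBound ε K φ Dφ) (hε : 0 < ε) (k : Fin 2) :
    MemLp (fun y => height (y k) * φ y) 2 ∧ mass (fun y => height (y k) * φ y) ≤ K / ε ^ 2 := by
  have hm : AEStronglyMeasurable fun y : Cfg 2 => height (y k) * φ y :=
    ((by unfold height; fun_prop : Continuous fun y : Cfg 2 => height (y k))
      ).aestronglyMeasurable.mul h.inH1.memLp.1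
  have hle : ∀ y, (height (y k) * φ y) ^ 2 ≤ 1 / ε ^ 2 * (weight ε 0 y * φ y) ^ 2 := fun y => by
    obtain ⟨ha, -, -⟩ := norms_le_weight hε y k
    have hz : |height (y k)| ≤ weight ε 0 y / ε := (PiLp.norm_apply_le (y k) 2).trans ha
    have := pow_le_pow_left₀ (abs_nonneg _) hz 2
    rw [sq_abs, div_pow] at this
    rw [mul_pow, mul_pow, ← mul_assoc, one_div_mul_eq_div]
    exact mul_le_mul_of_nonneg_right this (sq_nonneg _)
  have hi : Integrable fun y => (height (y k) * φ y) ^ 2 :=
    (h.mem.integrable_sq.const_mul (1 / ε ^ 2)).mono' (hm.pow 2) (Eventually.of_forall fun y => by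
      rw [Real.norm_eq_abs, abs_of_nonneg (sq_nonneg _)]; exact hle y)
  refine ⟨(memLp_two_iff_integrable_sq hm).2 hi,
    (integral_mono hi (h.mem.integrable_sq.const_mul _) hle).trans ?_⟩
  rw [integral_const_mul, one_div_mul_eq_div]
  exact div_le_div_of_nonneg_right h.le (sq_nonneg _)

theorem mass_mix_one (hZ : ZeroOrder l g u Dg Du eg eu e') : mass (mix 1 g u) = 1 := by
  refine Exist.mass_mix (one_pow 2) hZ.g_lim.1 hZ.u_lim.1 hZ.g_mass hZ.u_mass ?_
  exact Exist.ip_gu hZ

/-- A truncated moment of two states against the one of the levels. -/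
theorem moment_close (hZ : ZeroOrder l g u Dg Du eg eu e') {φ ψ : Cfg 2 → ℝ} (hφ : MemLp φ 2)
    (hψ : MemLp ψ 2) (hψ1 : mass ψ = 1) {η T : ℝ} (hT : 0 ≤ T)
    (hφc : mass (φ - prod2 g g) ≤ η ^ 2) (hψc : mass (ψ - mix 1 g u) ≤ η ^ 2) (hη : 0 ≤ η)
    (k : Fin 2) :
    (∫ p, clipT T (height p) * g p * u p) / √2 - 2 * T * η ≤
      ip (fun y => clipT T (height (y k)) * φ y) ψ := by
  have hg := hZ.g_lim.1
  have hu := hZ.u_lim.1
  set b : Cfg 2 → ℝ := fun y => clipT T (height (y k)) with hb
  have hbm : AEStronglyMeasurable b :=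
    ((continuous_clipT T).comp (by unfold height; fun_prop :
      Continuous fun y : Cfg 2 => height (y k))).aestronglyMeasurable
  have hmul : ∀ {F : Cfg 2 → ℝ}, MemLp F 2 → MemLp (fun y => b y * F y) 2 ∧
      mass (fun y => b y * F y) ≤ T ^ 2 * mass F := by
    intro F hF
    have hM : MemLp (fun y => b y * F y) 2 :=
      hF.of_le_mul (c := T) (hbm.mul hF.1) (Eventually.of_forall fun y => by
        rw [norm_mul, Real.norm_eq_abs]
        exact mul_le_mul_of_nonneg_right (abs_clipT_le hT _) (norm_nonneg _))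
    refine ⟨hM, ?_⟩
    rw [mass, mass, ← integral_const_mul]
    refine integral_mono hM.integrable_sq (hF.integrable_sq.const_mul _) fun y => ?_
    rw [mul_pow]
    refine mul_le_mul_of_nonneg_right ?_ (sq_nonneg _)
    rw [← sq_abs (b y)]
    exact pow_le_pow_left₀ (abs_nonneg _) (abs_clipT_le hT _) 2
  have hG : MemLp (prod2 g g) 2 := memLp_prod2 hg hg
  have hH : MemLp (mix 1 g u) 2 := memLp_mix 1 hg hu
  have hG1 : mass (prod2 g g) = 1 := by
    rw [← Exist.ip_self, ip_prod2, Exist.ip_self, Exist.mass_g hZ, one_mul]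
  have e1 : ip (fun y => b y * φ y) ψ = ip (fun y => b y * prod2 g g y) (mix 1 g u) +
      ip (fun y => b y * ψ y) (φ - prod2 g g) +
      ip (fun y => b y * prod2 g g y) (ψ - mix 1 g u) := by
    have i1 : Integrable fun y => b y * prod2 g g y * mix 1 g u y :=
      (hmul hG).1.integrable_mul hH
    have i2 : Integrable fun y => b y * ψ y * (φ - prod2 g g) y :=
      (hmul hψ).1.integrable_mul (hφ.sub hG)
    have i3 : Integrable fun y => b y * prod2 g g y * (ψ - mix 1 g u) y :=
      (hmul hG).1.integrable_mul (hψ.sub hH)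
    simp only [ip]
    rw [← integral_add i1 i2, ← integral_add (i1.fun_add i2) i3]
    refine integral_congr_ae (Eventually.of_forall fun y => ?_)
    simp only [Pi.sub_apply]
    ring
  have bd : ∀ {F D : Cfg 2 → ℝ}, MemLp F 2 → mass F = 1 → MemLp D 2 → mass D ≤ η ^ 2 →
      |ip (fun y => b y * F y) D| ≤ T * η := by
    intro F D hF h1 hD hD'
    refine (Exist.abs_ip_le (hmul hF).1 hD).trans (mul_le_mul ?_ ?_ (Real.sqrt_nonneg _) hT)
    · rw [← Real.sqrt_sq hT]
      exact Real.sqrt_le_sqrt (by simpa [h1] using (hmul hF).2)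
    · rw [← Real.sqrt_sq hη]
      exact Real.sqrt_le_sqrt hD'
  have e2 : ip (fun y => b y * prod2 g g y) (mix 1 g u) =
      (∫ p, clipT T (height p) * g p * u p) / √2 := by
    have htg : MemLp (fun p => clipT T (height p) * g p) 2 :=
      hg.of_le_mul (c := T) ((((continuous_clipT T).comp (by unfold height; fun_prop :
        Continuous height)).aestronglyMeasurable).mul hg.1) (Eventually.of_forall fun p => by
          rw [norm_mul, Real.norm_eq_abs]
          exact mul_le_mul_of_nonneg_right (abs_clipT_le hT _) (norm_nonneg _))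
    have hgu : ip g u = 0 := Exist.ip_gu hZ
    have hgg : ip g g = 1 := by rw [Exist.ip_self]; exact Exist.mass_g hZ
    fin_cases k
    · rw [show (fun y : Cfg 2 => b y * prod2 g g y) =
        prod2 (fun p => clipT T (height p) * g p) g from funext fun y => by
          simp [hb, prod2, mul_assoc], mix,
        Exist.ip_comb' _ _ (memLp_prod2 htg hg) (memLp_prod2 hg hu) (memLp_prod2 hu hg),
        ip_prod2, ip_prod2, hgu, hgg]
      simp only [ip]
      ring
    · rw [show (fun y : Cfg 2 => b y * prod2 g g y) =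
        prod2 g (fun p => clipT T (height p) * g p) from funext fun y => by
          simp [hb, prod2]; ring, mix,
        Exist.ip_comb' _ _ (memLp_prod2 hg htg) (memLp_prod2 hg hu) (memLp_prod2 hu hg),
        ip_prod2, ip_prod2, hgu, hgg]
      simp only [ip]
      ring
  have b1 := (abs_le.1 (bd hψ hψ1 (hφ.sub hG) hφc)).1
  have b2 := (abs_le.1 (bd hG hG1 (hψ.sub hH) hψc)).1
  show _ ≤ ip (fun y => b y * φ y) ψ
  rw [e1, e2]
  linarith

/-- The dipole moment. -/
theorem dipole_moment (hZ : ZeroOrder l g u Dg Du eg eu e') (C ε K : ℝ) (hε : 0 < ε) :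
    ∃ lam₁ d : ℝ, 0 < lam₁ ∧ 0 < d ∧ ∀ lam ∈ Ioo 0 lam₁,
      ∀ E3 f D E2 χ Dχ Es χs Ds Et χt Dt,
        MolState l lam C g u Dg Du eg eu E3 f D E2 χ Dχ Es χs Ds Et χt Dt →
        IonBound ε K χ Dχ → IonBound ε K χs Ds →
          d ≤ ∑ k, ∫ y : Cfg 2, height (y k) * χ y * χs y := by
  obtain ⟨d₀, hd₀, hd⟩ := level_moment hZ
  set d₁ := d₀ / √2 with hd₁
  have hd₁0 : 0 < d₁ := by positivity
  set M := |K| / ε ^ 2 with hM
  set T := 1 + 4 * M / d₁ with hT
  have hT1 : 1 ≤ T := le_add_of_nonneg_right (by positivity)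
  have hT0 : 0 < T := zero_lt_one.trans_le hT1
  set η := d₁ / (16 * T) with hη
  have hη0 : 0 < η := by positivity
  refine ⟨η ^ 2 / (|C| + 1), d₁, by positivity, hd₁0,
    fun lam hlam E3 f D E2 χ Dχ Es χs Ds Et χt Dt hS hb hbs => ?_⟩
  have hC : C * lam ≤ η ^ 2 := by
    have h1 := hlam.2
    rw [lt_div_iff₀ (by positivity)] at h1
    calc C * lam ≤ (|C| + 1) * lam :=
          mul_le_mul_of_nonneg_right (by linarith [le_abs_self C]) hlam.1.le
      _ ≤ η ^ 2 := by linarith
  have hφc : mass (χ - prod2 g g) ≤ η ^ 2 := le_trans hS.ion.close hC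
  have hψc : mass (χs - mix 1 g u) ≤ η ^ 2 := by
    refine le_trans (le_of_eq (integral_congr_ae (Eventually.of_forall fun y => ?_)))
      (le_trans hS.singlet.close hC)
    simp only [Pi.sub_apply, mix, Pi.add_apply, Pi.smul_apply, smul_eq_mul]
    ring
  have hk : ∀ k, d₁ / 2 ≤ ∫ y : Cfg 2, height (y k) * χ y * χs y := by
    intro k
    obtain ⟨hm, hmK⟩ := hb.moment hε k
    obtain ⟨hms, hmsK⟩ := hbs.moment hε k
    have hclose := moment_close hZ hb.inH1.memLp hbs.inH1.memLp hS.singlet.lowest.mass_one
      hT0.le hφc hψc hη0.le k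
    have i1 : Integrable fun y : Cfg 2 => height (y k) * χ y * χs y :=
      hm.integrable_mul hbs.inH1.memLp
    have hbi : Integrable fun y : Cfg 2 => clipT T (height (y k)) * χ y * χs y := by
      refine ((hb.inH1.memLp.integrable_mul hbs.inH1.memLp).bdd_mul (c := T)
        (((continuous_clipT T).comp (by unfold height; fun_prop :
          Continuous fun y : Cfg 2 => height (y k))).aestronglyMeasurable)
        (Eventually.of_forall fun y => by
          rw [Real.norm_eq_abs]; exact abs_clipT_le hT0.le _)).congr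
        (Eventually.of_forall fun y => ?_)
      simp only [Function.comp_apply, Pi.mul_apply]
      ring
    have ip' : ∫ y, ‖height (y k) * χ y * χs y - clipT T (height (y k)) * χ y * χs y‖ ≤
        M / T := by
      have hbnd : ∀ y, ‖height (y k) * χ y * χs y - clipT T (height (y k)) * χ y * χs y‖ ≤
          1 / (2 * T) * ((height (y k) * χ y) ^ 2 + (height (y k) * χs y) ^ 2) := by
        intro y
        rw [Real.norm_eq_abs, mul_assoc, mul_assoc, ← sub_mul, abs_mul, abs_mul]
        calc |height (y k) - clipT T (height (y k))| * (|χ y| * |χs y|)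
            ≤ height (y k) ^ 2 / T * (|χ y| * |χs y|) :=
              mul_le_mul_of_nonneg_right (abs_sub_clipT_le hT0 _) (by positivity)
          _ ≤ height (y k) ^ 2 / T * ((χ y ^ 2 + χs y ^ 2) / 2) := by
              refine mul_le_mul_of_nonneg_left ?_ (by positivity)
              nlinarith [sq_nonneg (|χ y| - |χs y|), sq_abs (χ y), sq_abs (χs y)]
          _ = _ := by field_simp
      refine (integral_mono (i1.sub hbi).norm
        ((hm.integrable_sq.add hms.integrable_sq).const_mul _) hbnd).trans ?_
      rw [integral_const_mul, integral_add' hm.integrable_sq hms.integrable_sq]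
      have hK' : K / ε ^ 2 ≤ M := div_le_div_of_nonneg_right (le_abs_self K) (sq_nonneg _)
      calc 1 / (2 * T) * ((∫ y : Cfg 2, (height (y k) * χ y) ^ 2) +
            ∫ y : Cfg 2, (height (y k) * χs y) ^ 2) ≤ 1 / (2 * T) * (M + M) :=
            mul_le_mul_of_nonneg_left (add_le_add (hmK.trans hK') (hmsK.trans hK'))
              (by positivity)
        _ = M / T := by field_simp; ring
    have h3 := (norm_integral_le_integral_norm
      fun y => height (y k) * χ y * χs y - clipT T (height (y k)) * χ y * χs y).trans ip'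
    rw [Real.norm_eq_abs, integral_sub i1 hbi] at h3
    have h4 : M / T ≤ d₁ / 4 := by
      rw [div_le_div_iff₀ hT0 (by norm_num), hT, mul_add, mul_one, mul_div_cancel₀ _ hd₁0.ne']
      linarith
    have h5 : 2 * T * η = d₁ / 8 := by rw [hη]; field_simp; ring
    have h6 : d₁ ≤ (∫ p, clipT T (height p) * g p * u p) / √2 :=
      div_le_div_of_nonneg_right (hd T hT1) (Real.sqrt_nonneg _)
    simp only [ip] at hclose
    linarith [(abs_le.1 h3).1]
  rw [Fin.sum_univ_two]
  linarith [hk 0, hk 1]

end Vale.Agent.P363.Inter
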